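import Mathlib
import Vale.Agent.Lib.P194.Small

universe u v w

namespace Vale.Agent.Results.P194.B_smallsupport

open Vale.Agent.Lib.P201

theorem result :
    ∀ (K : Type w) [Field K] (G : Type u) [Group G] (n : ℕ),
      (n ≤ 3 ∨ (n ≤ 4 ∧ ∀ g : G, g ≠ 1 → ¬ IsOfFinOrder g)) →
      (∀ α β : MonoidAlgebra K G, α * β = 1 → β * α ≠ 1 → α.coeff.support.card ≤ n →
        TreeRigid.{u, v} (diffSubgroup (α.coeff.support : Set G))) ∧
      (∀ (V : Type v) (T : SimpleGraph V), T.IsTree → ∀ [MulAction G V],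
        (∀ (g : G) (x y : V), T.Adj x y → T.Adj (g • x) (g • y)) →
        (∀ (g : G) (x y : V), T.Adj x y → g • x = y → g • y ≠ x) →
        (∀ (x : V) (γ δ : MonoidAlgebra K (MulAction.stabilizer G x)),
          γ * δ = 1 → δ * γ = 1) →
        ∀ α β : MonoidAlgebra K G, (α.coeff.support.card ≤ n ∨ β.coeff.support.card ≤ n) →
          α * β = 1 → β * α = 1) :=
  Vale.Agent.Lib.P194.main_small

end Vale.Agent.Results.P194.B_smallsupport
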