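import Vale.Agent.Results.P194.A_reduction
import Vale.Agent.Results.P194.B_smallsupport

universe u v w

namespace Vale.Agent.Results.P194.AAA_union

open Vale.Agent.Lib.P201

/-- Both results on direct finiteness in one statement: the reduction of the stable form to finitely
presented groups over prime fields, and the small support theorem for trees. -/
theorem result :
    ((∀ (K : Type w) [Field K] (G : Type u) [Group G],
      List.TFAE [IsStablyFiniteRing (MonoidAlgebra K G),
        ∀ (H : Type) [Group H] [Finite H], IsDedekindFiniteMonoid (MonoidAlgebra K (G × H)),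
        ∀ m : ℕ, IsDedekindFiniteMonoid (MonoidAlgebra K (G × Equiv.Perm (Fin m)))]) ∧
    (∀ (p : ℕ) [Fact p.Prime] (G : Type u) [Group G],
      IsStablyFiniteRing (MonoidAlgebra (ZMod p) G) →
        ∀ (K : Type w) [Field K] [CharP K p], IsStablyFiniteRing (MonoidAlgebra K G)) ∧
    (∀ (p : ℕ) [Fact p.Prime],
      (∀ (Γ : Type) [Group Γ] [Group.IsFinitelyPresented Γ],
        IsDedekindFiniteMonoid (MonoidAlgebra (ZMod p) Γ)) ↔
      ∀ (K : Type w) [Field K] [CharP K p] (G : Type u) [Group G],
        IsStablyFiniteRing (MonoidAlgebra K G)) ∧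
    ((∀ (p : ℕ) [Fact p.Prime] (Γ : Type) [Group Γ] [Group.IsFinitelyPresented Γ],
        IsDedekindFiniteMonoid (MonoidAlgebra (ZMod p) Γ)) ↔
      ∀ (K : Type w) [Field K] (G : Type u) [Group G],
        IsStablyFiniteRing (MonoidAlgebra K G))) ∧
    (∀ (K : Type w) [Field K] (G : Type u) [Group G] (n : ℕ),
      (n ≤ 3 ∨ (n ≤ 4 ∧ ∀ g : G, g ≠ 1 → ¬ IsOfFinOrder g)) →
      (∀ α β : MonoidAlgebra K G, α * β = 1 → β * α ≠ 1 → α.coeff.support.card ≤ n →
        TreeRigid.{u, v} (diffSubgroup (α.coeff.support : Set G))) ∧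
      (∀ (V : Type v) (T : SimpleGraph V), T.IsTree → ∀ [MulAction G V],
        (∀ (g : G) (x y : V), T.Adj x y → T.Adj (g • x) (g • y)) →
        (∀ (g : G) (x y : V), T.Adj x y → g • x = y → g • y ≠ x) →
        (∀ (x : V) (γ δ : MonoidAlgebra K (MulAction.stabilizer G x)),
          γ * δ = 1 → δ * γ = 1) →
        ∀ α β : MonoidAlgebra K G, (α.coeff.support.card ≤ n ∨ β.coeff.support.card ≤ n) →
          α * β = 1 → β * α = 1)) :=
  ⟨A_reduction.result.{u, w}, B_smallsupport.result.{u, v, w}⟩

end Vale.Agent.Results.P194.AAA_union
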