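import Mathlib
import Vale.Agent.Results.P194.AAA_union
import Vale.Agent.Lib.P201.Quasi
import Vale.Agent.Lib.P201.Quasi5

universe u v w

namespace Vale.Agent.Results.P194.AAAA_union

open Vale.Agent.Lib.P201

/-- Statement (A): the reduction of the stable form to finitely presented groups over prime
fields. -/
def ReductionPart : Prop :=
  (∀ (K : Type w) [Field K] (G : Type u) [Group G],
      List.TFAE [IsStablyFiniteRing (MonoidAlgebra K G),
        ∀ (H : Type) [Group H] [Finite H], IsDedekindFiniteMonoid (MonoidAlgebra K (G × H)),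
        ∀ m : ℕ, IsDedekindFiniteMonoid (MonoidAlgebra K (G × Equiv.Perm (Fin m)))]) ∧
    (∀ (p : ℕ) [Fact p.Prime] (G : Type u) [Group G],
      IsStablyFiniteRing (MonoidAlgebra (ZMod p) G) →
        ∀ (K : Type w) [Field K] [CharP K p], IsStablyFiniteRing (MonoidAlgebra K G)) ∧
    (∀ (p : ℕ) [Fact p.Prime],
      (∀ (Γ : Type) [Group Γ] [Group.IsFinitelyPresented Γ],
        IsDedekindFiniteMonoid (MonoidAlgebra (ZMod p) Γ)) ↔
      ∀ (K : Type w) [Field K] [CharP K p] (G : Type u) [Group G],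
        IsStablyFiniteRing (MonoidAlgebra K G)) ∧
    ((∀ (p : ℕ) [Fact p.Prime] (Γ : Type) [Group Γ] [Group.IsFinitelyPresented Γ],
        IsDedekindFiniteMonoid (MonoidAlgebra (ZMod p) Γ)) ↔
      ∀ (K : Type w) [Field K] (G : Type u) [Group G],
        IsStablyFiniteRing (MonoidAlgebra K G))

/-- Statement (B): one-sided inverses with few terms, and trees. -/
def TreePart : Prop :=
  ∀ (K : Type w) [Field K] (G : Type u) [Group G] (n : ℕ),
    (n ≤ 3 ∨ (n ≤ 4 ∧ ∀ g : G, g ≠ 1 → ¬ IsOfFinOrder g)) →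
    (∀ α β : MonoidAlgebra K G, α * β = 1 → β * α ≠ 1 → α.coeff.support.card ≤ n →
      TreeRigid.{u, v} (diffSubgroup (α.coeff.support : Set G))) ∧
    (∀ (V : Type v) (T : SimpleGraph V), T.IsTree → ∀ [MulAction G V],
      (∀ (g : G) (x y : V), T.Adj x y → T.Adj (g • x) (g • y)) →
      (∀ (g : G) (x y : V), T.Adj x y → g • x = y → g • y ≠ x) →
      (∀ (x : V) (γ δ : MonoidAlgebra K (MulAction.stabilizer G x)),
        γ * δ = 1 → δ * γ = 1) →
      ∀ α β : MonoidAlgebra K G, (α.coeff.support.card ≤ n ∨ β.coeff.support.card ≤ n) →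
        α * β = 1 → β * α = 1)

/-- Statement (C): quasimorphisms and a one-sided inverse that is not two-sided. -/
def QuasiPart : Prop :=
  ∀ (K : Type w) [Field K] (G : Type u) [Group G] (α β : MonoidAlgebra K G),
    α * β = 1 → β * α ≠ 1 →
    (∀ (φ : diffSubgroup (α.coeff.support : Set G) → ℝ) (Δ : ℝ),
      (∀ x y, |φ (x * y) - φ x - φ y| ≤ Δ) →
      (∀ (x : diffSubgroup (α.coeff.support : Set G)) (n : ℕ), φ (x ^ n) = n * φ x) →
      ∀ a ∈ α.coeff.support, ∀ b ∈ α.coeff.support,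
        ∀ hs : a⁻¹ * b ∈ diffSubgroup (α.coeff.support : Set G),
          (α.coeff.support.card ≤ 3 → |φ ⟨a⁻¹ * b, hs⟩| ≤ Δ) ∧
          ((∀ g : G, g ≠ 1 → ¬ IsOfFinOrder g) → α.coeff.support.card ≤ 5 →
            |φ ⟨a⁻¹ * b, hs⟩| ≤ 12 * Δ)) ∧
    (∀ (φ : G → ℝ) (Δ : ℝ), (∀ x y : G, |φ (x * y) - φ x - φ y| ≤ Δ) →
      (∀ a₀ ∈ α.coeff.support, (∀ a ∈ α.coeff.support, φ a ≤ φ a₀) →
        ∃ a₁ ∈ α.coeff.support, a₁ ≠ a₀ ∧ φ a₀ ≤ φ a₁ + 2 * Δ) ∧
      (∀ b₀ ∈ β.coeff.support, (∀ b ∈ β.coeff.support, φ b ≤ φ b₀) →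
        ∃ b₁ ∈ β.coeff.support, b₁ ≠ b₀ ∧ φ b₀ ≤ φ b₁ + 2 * Δ))

/-- Statement (D): an element with a dominant high power has only two-sided one-sided inverses. -/
def DominantPart : Prop :=
  ∀ (K : Type w) [Field K] (G : Type u) [Group G] (φ : G → ℝ) (Δ : ℝ),
    (∀ x y : G, |φ (x * y) - φ x - φ y| ≤ Δ) → (∀ x (n : ℕ), φ (x ^ n) = n * φ x) →
    ∀ (g : G), 0 < φ g → ∀ (γ : MonoidAlgebra K G) (c : K), c ≠ 0 →
      ∃ N₀ : ℕ, ∀ N : ℕ, N₀ ≤ N → ∀ y : MonoidAlgebra K G,
        ((MonoidAlgebra.single (g ^ N) c + γ) * y = 1 →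
          y * (MonoidAlgebra.single (g ^ N) c + γ) = 1) ∧
        (y * (MonoidAlgebra.single (g ^ N) c + γ) = 1 →
          (MonoidAlgebra.single (g ^ N) c + γ) * y = 1)

theorem result :
    ReductionPart.{u, w} ∧ TreePart.{u, v, w} ∧ QuasiPart.{u, w} ∧ DominantPart.{u, w} := by
  refine ⟨Vale.Agent.Results.P194.AAA_union.result.{u, v, w}.1,
    Vale.Agent.Results.P194.AAA_union.result.{u, v, w}.2, ?_, ?_⟩
  · intro K _ G _ α β h hne
    have hw : (1 : MonoidAlgebra K G) - β * α ≠ 0 := sub_ne_zero.mpr (Ne.symm hne)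
    have hl : α * (1 - β * α) = 0 := by
      rw [mul_sub, mul_one, ← mul_assoc, h, one_mul, sub_self]
    have hr : (1 - β * α) * β = 0 := by
      rw [sub_mul, one_mul, mul_assoc, h, mul_one, sub_self]
    constructor
    · intro φ Δ hq hh a ha b hb hs
      constructor
      · intro hcard
        exact quasi_three hw hl hcard φ Δ hq hh ha hb hs
      · intro ht hcard
        exact quasi_five ht hw hl hcard φ Δ hq hh ha hb hs
    · intro φ Δ hq
      constructor
      · intro a₀ ha₀ hmax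
        obtain ⟨a₁, ha₁, hne', hg⟩ := top_gap_left hq hw hl ha₀
        exact ⟨a₁, ha₁, hne', hg hmax⟩
      · intro b₀ hb₀ hmax
        obtain ⟨b₁, hb₁, hne', hg⟩ := top_gap_right hq hw hr hb₀
        exact ⟨b₁, hb₁, hne', hg hmax⟩
  · intro K _ G _ φ Δ hq hh g hg γ c hc
    obtain ⟨N₀, hN⟩ := dominant_power hq hh hg γ hc
    refine ⟨N₀, fun N hN' y => ?_⟩
    set x := MonoidAlgebra.single (g ^ N) c + γ with hx
    constructor
    · intro hxy
      have h0 : x * (1 - y * x) = 0 := by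
        rw [mul_sub, mul_one, ← mul_assoc, hxy, one_mul, sub_self]
      have h1 := (hN N hN' (1 - y * x)).1 h0
      exact (sub_eq_zero.mp h1).symm
    · intro hyx
      have h0 : (1 - x * y) * x = 0 := by
        rw [sub_mul, one_mul, mul_assoc, hyx, mul_one, sub_self]
      have h1 := (hN N hN' (1 - x * y)).2 h0
      exact (sub_eq_zero.mp h1).symm

end Vale.Agent.Results.P194.AAAA_union
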