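import Mathlib
import Vale.Agent.Lib.P194.Presented

universe u v

namespace Vale.Agent.Results.P194.A_reduction

theorem result :
    (∀ (K : Type v) [Field K] (G : Type u) [Group G],
      List.TFAE [IsStablyFiniteRing (MonoidAlgebra K G),
        ∀ (H : Type) [Group H] [Finite H], IsDedekindFiniteMonoid (MonoidAlgebra K (G × H)),
        ∀ m : ℕ, IsDedekindFiniteMonoid (MonoidAlgebra K (G × Equiv.Perm (Fin m)))]) ∧
    (∀ (p : ℕ) [Fact p.Prime] (G : Type u) [Group G],
      IsStablyFiniteRing (MonoidAlgebra (ZMod p) G) →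
        ∀ (K : Type v) [Field K] [CharP K p], IsStablyFiniteRing (MonoidAlgebra K G)) ∧
    (∀ (p : ℕ) [Fact p.Prime],
      (∀ (Γ : Type) [Group Γ] [Group.IsFinitelyPresented Γ],
        IsDedekindFiniteMonoid (MonoidAlgebra (ZMod p) Γ)) ↔
      ∀ (K : Type v) [Field K] [CharP K p] (G : Type u) [Group G],
        IsStablyFiniteRing (MonoidAlgebra K G)) ∧
    ((∀ (p : ℕ) [Fact p.Prime] (Γ : Type) [Group Γ] [Group.IsFinitelyPresented Γ],
        IsDedekindFiniteMonoid (MonoidAlgebra (ZMod p) Γ)) ↔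
      ∀ (K : Type v) [Field K] (G : Type u) [Group G],
        IsStablyFiniteRing (MonoidAlgebra K G)) :=
  Vale.Agent.Lib.P194.main_statement

end Vale.Agent.Results.P194.A_reduction
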